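import Mathlib

/-!
# Stieltjes sums, and Chebyshev approximation of the inverse

`StSum w lam s = ∑ w i / (s - lam i)` and `St2` is minus its derivative. Two such sums whose first
`n` moments agree are exponentially close at distance `g` from the spectrum, with rate `√(g/L)`.
-/

noncomputable section

namespace Vale.Agent.P078.Local

open Polynomial

variable {ι κ : Type*} [Fintype ι] [Fintype κ]

/-- A finite Stieltjes sum. -/
def StSum (w lam : ι → ℝ) (s : ℝ) : ℝ := ∑ i, w i / (s - lam i)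

/-- Minus the derivative of a finite Stieltjes sum. -/
def St2 (w lam : ι → ℝ) (s : ℝ) : ℝ := ∑ i, w i / (s - lam i) ^ 2

/-- The `k`-th moment. -/
def mom (w lam : ι → ℝ) (k : ℕ) : ℝ := ∑ i, w i * lam i ^ k

/-- A polynomial of degree below `n` is uniformly close to `1 / d` on `[g, L]`. -/
theorem exists_approx_inv {g L : ℝ} (hg : 0 < g) (hgL : g < L) {n : ℕ} (hn : 0 < n) :
    ∃ p : ℝ[X], p.natDegree < n ∧ ∀ d ∈ Set.Icc g L,
      |1 / d - p.eval d| ≤ 2 * Real.exp (-(n * Real.sqrt (g / L))) / g := by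
  have hL : 0 < L := hg.trans hgL
  have hLg : 0 < L - g := sub_pos.2 hgL
  set a : ℝ := (L + g) / (L - g) with ha
  set b : ℝ := 2 / (L - g) with hb
  set θ : ℝ := Real.sqrt (g / L) with hθ
  have hθ0 : 0 ≤ θ := Real.sqrt_nonneg _
  have ha1 : 1 ≤ a := by rw [ha, one_le_div hLg]; linarith
  have hcosh : Real.cosh θ ≤ a := by
    refine (Real.cosh_le_exp_half_sq θ).trans ?_
    rw [hθ, Real.sq_sqrt (by positivity)]
    have hu : g / L ≤ 1 := (div_le_one hL).2 hgL.le
    have hu0 : 0 ≤ g / L := by positivity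
    have h1 : Real.exp (g / L / 2) ≤ 1 + g / L := by
      have h2 := Real.exp_bound_div_one_sub_of_interval (x := g / L / 2) (by linarith) (by linarith)
      refine h2.trans ?_
      rw [div_le_iff₀ (by linarith)]
      nlinarith
    refine h1.trans ?_
    rw [ha, one_add_div hL.ne', div_le_div_iff₀ hL hLg]
    nlinarith
  set Ta : ℝ := (Chebyshev.T ℝ (n : ℤ)).eval a with hTa
  have hTa' : Real.exp (n * θ) / 2 ≤ Ta := by
    have e : Ta = Real.cosh (n * Real.arcosh a) := by
      rw [hTa]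
      conv_lhs => rw [← Real.cosh_arcosh ha1, Chebyshev.T_real_cosh]
      norm_cast
    have h3 : θ ≤ Real.arcosh a := by
      have h4 : Real.cosh θ ≤ Real.cosh (Real.arcosh a) := by rwa [Real.cosh_arcosh ha1]
      rwa [Real.cosh_le_cosh, abs_of_nonneg hθ0, abs_of_nonneg (Real.arcosh_nonneg ha1)] at h4
    have h5 : Real.cosh (n * θ) ≤ Real.cosh (n * Real.arcosh a) := by
      rw [Real.cosh_le_cosh, abs_of_nonneg (by positivity),
        abs_of_nonneg (mul_nonneg n.cast_nonneg (Real.arcosh_nonneg ha1))]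
      exact mul_le_mul_of_nonneg_left h3 n.cast_nonneg
    rw [e]
    refine le_trans ?_ h5
    rw [Real.cosh_eq]
    have := Real.exp_pos (-(n * θ))
    linarith
  have hTa0 : 0 < Ta := lt_of_lt_of_le (by positivity) hTa'
  set N : ℝ[X] := 1 - C Ta⁻¹ * (Chebyshev.T ℝ (n : ℤ)).comp (C a - C b * X) with hN
  have hev : ∀ d : ℝ, N.eval d = 1 - Ta⁻¹ * (Chebyshev.T ℝ (n : ℤ)).eval (a - b * d) := by
    intro d
    simp [hN, eval_comp]
  have hN0 : N.coeff 0 = 0 := by
    rw [coeff_zero_eq_eval_zero, hev]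
    simp [← hTa, inv_mul_cancel₀ hTa0.ne']
  have hNdeg : N.natDegree ≤ n := by
    refine (natDegree_sub_le _ _).trans (max_le (by simp) ?_)
    refine (natDegree_C_mul_le _ _).trans (natDegree_comp_le.trans ?_)
    have h1 : (Chebyshev.T ℝ (n : ℤ)).natDegree ≤ n := by
      simp [Chebyshev.natDegree_T]
    have h2 : (C a - C b * X).natDegree ≤ 1 := by
      refine (natDegree_sub_le _ _).trans (max_le (by simp) ?_)
      exact (natDegree_C_mul_le _ _).trans (by simp)
    calc (Chebyshev.T ℝ (n : ℤ)).natDegree * (C a - C b * X).natDegree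
        ≤ n * 1 := Nat.mul_le_mul h1 h2
      _ = n := Nat.mul_one n
  refine ⟨N.divX, by rw [natDegree_divX_eq_natDegree_tsub_one]; omega, fun d hd => ?_⟩
  have hd0 : 0 < d := hg.trans_le hd.1
  have hdiv : N.eval d = d * N.divX.eval d := by
    conv_lhs => rw [← N.X_mul_divX_add]
    simp [hN0]
  have he : 1 / d - N.divX.eval d = Ta⁻¹ * (Chebyshev.T ℝ (n : ℤ)).eval (a - b * d) / d := by
    have h6 := hev d
    rw [hdiv] at h6
    field_simp at h6 ⊢
    linarith
  have hx : |a - b * d| ≤ 1 := by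
    rw [ha, hb, div_mul_eq_mul_div, div_sub_div_same, abs_div, abs_of_pos hLg, div_le_one hLg,
      abs_le]
    constructor <;> linarith [hd.1, hd.2]
  rw [he, abs_div, abs_mul, abs_inv, abs_of_pos hTa0, abs_of_pos hd0]
  have hT1 := Chebyshev.abs_eval_T_real_le_one (n : ℤ) hx
  calc Ta⁻¹ * |(Chebyshev.T ℝ (n : ℤ)).eval (a - b * d)| / d
      ≤ Ta⁻¹ * 1 / g := by
        refine div_le_div₀ (by positivity) ?_ hg hd.1
        exact mul_le_mul_of_nonneg_left hT1 (by positivity)
    _ ≤ 2 * Real.exp (-(n * θ)) / g := by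
        rw [mul_one]
        refine div_le_div_of_nonneg_right ?_ hg.le
        rw [Real.exp_neg, ← div_eq_mul_inv]
        rw [inv_le_comm₀ hTa0 (by positivity), inv_div]
        exact hTa'

/-- Sums with equal moments below `n` are close at distance at least `g` from the spectrum. -/
theorem St_close {w lam : ι → ℝ} {w' lam' : κ → ℝ} {g L s : ℝ} {n : ℕ} (hg : 0 < g) (hgL : g < L)
    (hn : 0 < n) (hw : ∀ i, 0 ≤ w i) (hw' : ∀ i, 0 ≤ w' i)
    (hl : ∀ i, s - lam i ∈ Set.Icc g L) (hl' : ∀ i, s - lam' i ∈ Set.Icc g L)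
    (hm : ∀ k < n, mom w lam k = mom w' lam' k) :
    |StSum w lam s - StSum w' lam' s| ≤
      (∑ i, w i + ∑ i, w' i) * (2 * Real.exp (-(n * Real.sqrt (g / L))) / g) := by
  obtain ⟨p, hp, hb⟩ := exists_approx_inv hg hgL hn
  set E : ℝ := 2 * Real.exp (-(n * Real.sqrt (g / L))) / g
  set q : ℝ[X] := p.comp (C s - X) with hq
  have hqd : q.natDegree < n := by
    rw [hq, natDegree_comp]
    have : (C s - X : ℝ[X]).natDegree ≤ 1 := (natDegree_sub_le _ _).trans (by simp)
    exact lt_of_le_of_lt ((Nat.mul_le_mul_left _ this).trans (by omega)) hp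
  have hsum : ∑ i, w i * p.eval (s - lam i) = ∑ i, w' i * p.eval (s - lam' i) := by
    have h1 : ∀ x, p.eval (s - x) = ∑ k ∈ Finset.range n, q.coeff k * x ^ k := by
      intro x
      rw [← eval_eq_sum_range' hqd, hq]
      simp [eval_comp]
    simp only [h1, Finset.mul_sum]
    rw [Finset.sum_comm, Finset.sum_comm (γ := κ)]
    refine Finset.sum_congr rfl fun k hk => ?_
    simp only [mul_left_comm _ (q.coeff k), ← Finset.mul_sum]
    exact congrArg _ (hm k (Finset.mem_range.1 hk))
  have hdec : StSum w lam s - StSum w' lam' s = ∑ i, w i * (1 / (s - lam i) - p.eval (s - lam i)) -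
      ∑ i, w' i * (1 / (s - lam' i) - p.eval (s - lam' i)) := by
    simp only [StSum, mul_sub, Finset.sum_sub_distrib, mul_one_div, hsum]
    ring
  rw [hdec, add_mul]
  refine (abs_sub _ _).trans (add_le_add ?_ ?_)
  · rw [Finset.sum_mul]
    refine (Finset.abs_sum_le_sum_abs _ _).trans (Finset.sum_le_sum fun i _ => ?_)
    rw [abs_mul, abs_of_nonneg (hw i)]
    exact mul_le_mul_of_nonneg_left (hb _ (hl i)) (hw i)
  · rw [Finset.sum_mul]
    refine (Finset.abs_sum_le_sum_abs _ _).trans (Finset.sum_le_sum fun i _ => ?_)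
    rw [abs_mul, abs_of_nonneg (hw' i)]
    exact mul_le_mul_of_nonneg_left (hb _ (hl' i)) (hw' i)

section facts

variable {w lam : ι → ℝ} {s t : ℝ}

theorem St_nonneg (hw : ∀ i, 0 ≤ w i) (hl : ∀ i, lam i < s) : 0 ≤ StSum w lam s :=
  Finset.sum_nonneg fun i _ => div_nonneg (hw i) (sub_pos.2 (hl i)).le

theorem St2_nonneg (hw : ∀ i, 0 ≤ w i) : 0 ≤ St2 w lam s :=
  Finset.sum_nonneg fun i _ => div_nonneg (hw i) (sq_nonneg _)

theorem St2_anti (hw : ∀ i, 0 ≤ w i) (hl : ∀ i, lam i < s) (hst : s ≤ t) :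
    St2 w lam t ≤ St2 w lam s := by
  refine Finset.sum_le_sum fun i _ => ?_
  have := hl i
  exact div_le_div_of_nonneg_left (hw i) (by positivity [sub_pos.2 this])
    (pow_le_pow_left₀ (sub_pos.2 this).le (by linarith) 2)

/-- The secant is above the slope at the right end. -/
theorem St2_mul_le_sub (hw : ∀ i, 0 ≤ w i) (hl : ∀ i, lam i < s) (hst : s ≤ t) :
    St2 w lam t * (t - s) ≤ StSum w lam s - StSum w lam t := by
  rw [StSum, StSum, St2, Finset.sum_mul, ← Finset.sum_sub_distrib]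
  refine Finset.sum_le_sum fun i _ => ?_
  have h1 := sub_pos.2 (hl i)
  have h2 : 0 < t - lam i := by linarith
  rw [show w i / (s - lam i) - w i / (t - lam i) = w i * (t - s) / ((s - lam i) * (t - lam i)) by
    field_simp; ring]
  rw [div_mul_eq_mul_div]
  refine div_le_div_of_nonneg_left (mul_nonneg (hw i) (sub_nonneg.2 hst)) (by positivity) ?_
  rw [sq]
  exact mul_le_mul_of_nonneg_right (by linarith) h2.le

/-- The secant is below the slope at the left end. -/
theorem sub_le_St2_mul (hw : ∀ i, 0 ≤ w i) (hl : ∀ i, lam i < s) (hst : s ≤ t) :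
    StSum w lam s - StSum w lam t ≤ St2 w lam s * (t - s) := by
  rw [StSum, StSum, St2, Finset.sum_mul, ← Finset.sum_sub_distrib]
  refine Finset.sum_le_sum fun i _ => ?_
  have h1 := sub_pos.2 (hl i)
  have h2 : 0 < t - lam i := by linarith
  rw [show w i / (s - lam i) - w i / (t - lam i) = w i * (t - s) / ((s - lam i) * (t - lam i)) by
    field_simp; ring]
  rw [div_mul_eq_mul_div]
  refine div_le_div_of_nonneg_left (mul_nonneg (hw i) (sub_nonneg.2 hst)) (by positivity) ?_
  rw [sq]
  exact mul_le_mul_of_nonneg_left (by linarith) h1.le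

theorem St_anti (hw : ∀ i, 0 ≤ w i) (hl : ∀ i, lam i < s) (hst : s ≤ t) :
    StSum w lam t ≤ StSum w lam s :=
  sub_nonneg.1 ((mul_nonneg (St2_nonneg hw) (sub_nonneg.2 hst)).trans (St2_mul_le_sub hw hl hst))

/-- Convexity: the slopes of secants increase. -/
theorem St_secant_le {u : ℝ} (hw : ∀ i, 0 ≤ w i) (hl : ∀ i, lam i < s) (hst : s ≤ t)
    (htu : t ≤ u) : (StSum w lam t - StSum w lam u) * (t - s) ≤ (StSum w lam s - StSum w lam t) * (u - t) := by
  have hl' : ∀ i, lam i < t := fun i => (hl i).trans_le hst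
  calc (StSum w lam t - StSum w lam u) * (t - s)
      ≤ St2 w lam t * (u - t) * (t - s) :=
        mul_le_mul_of_nonneg_right (sub_le_St2_mul hw hl' htu) (sub_nonneg.2 hst)
    _ = St2 w lam t * (t - s) * (u - t) := by ring
    _ ≤ _ := mul_le_mul_of_nonneg_right (St2_mul_le_sub hw hl hst) (sub_nonneg.2 htu)

/-- Moving towards the spectrum by less than the margin costs a bounded factor. -/
theorem St2_le_mul {m : ℝ} (hw : ∀ i, 0 ≤ w i) (hl : ∀ i, lam i ≤ m) (hm : m < s)
    (hst : s ≤ t) : St2 w lam s ≤ ((t - m) / (s - m)) ^ 2 * St2 w lam t := by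
  rw [St2, St2, Finset.mul_sum]
  refine Finset.sum_le_sum fun i _ => ?_
  have h1 : 0 < s - lam i := by linarith [hl i]
  have h2 : 0 < t - lam i := by linarith [hl i]
  have h3 : 0 < s - m := sub_pos.2 hm
  have h4 : (t - lam i) / (s - lam i) ≤ (t - m) / (s - m) := by
    rw [div_le_div_iff₀ h1 h3]
    nlinarith [hl i]
  calc w i / (s - lam i) ^ 2 = ((t - lam i) / (s - lam i)) ^ 2 * (w i / (t - lam i) ^ 2) := by
        field_simp
    _ ≤ _ := mul_le_mul_of_nonneg_right (pow_le_pow_left₀ (by positivity) h4 2)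
        (div_nonneg (hw i) (sq_nonneg _))

end facts

end Vale.Agent.P078.Local
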