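import Vale.Agent.P078.Local.Approx.Cheb

/-!
# Ratios of polynomials with the Herglotz sign are Stieltjes sums

If `Q / P` has nonpositive imaginary part in the upper half plane, where `P` is monic of larger
degree and has no zero there, it is a finite sum of `w / (s - a)` with `w ≥ 0` over zeros `a` of
`P`. The moments are read off at infinity.
-/

noncomputable section

namespace Vale.Agent.P078.Local

open Polynomial Filter
open scoped Topology

/-- The complex extension of a finite Stieltjes sum. -/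
def Stc {ι : Type*} [Fintype ι] (w lam : ι → ℝ) (z : ℂ) : ℂ := ∑ i, (w i : ℂ) / (z - (lam i : ℂ))

theorem aeval_ne_zero_of_upper {P : ℝ[X]} (hnz : ∀ z : ℂ, 0 < z.im → aeval z P ≠ 0) {z : ℂ}
    (hz : z.im ≠ 0) : aeval z P ≠ 0 := by
  rcases lt_or_gt_of_ne hz with h | h
  · intro h0
    refine hnz ((starRingEnd ℂ) z) (by simp [h]) ?_
    rw [Polynomial.aeval_conj, h0, map_zero]
  · exact hnz z h

theorem aeval_ofReal (P : ℝ[X]) (a : ℝ) : aeval (a : ℂ) P = ((P.eval a : ℝ) : ℂ) :=
  Polynomial.aeval_algebraMap_apply_eq_algebraMap_eval (A := ℂ) a P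

/-- Near a real pole the imaginary part sees the leading term in each upper direction. -/
theorem im_const_div_pow_nonpos {Q P2 : ℝ[X]} {a : ℝ} {k : ℕ} (h2 : P2.eval a ≠ 0)
    (him : ∀ z : ℂ, 0 < z.im → (aeval z Q / ((z - a) ^ k * aeval z P2)).im ≤ 0) {u : ℂ}
    (hu : 0 < u.im) : (((Q.eval a / P2.eval a : ℝ) : ℂ) / u ^ k).im ≤ 0 := by
  have hc : Tendsto (fun ρ : ℝ => aeval ((a : ℂ) + ρ * u) Q / aeval ((a : ℂ) + ρ * u) P2 / u ^ k)
      (𝓝[>] 0) (𝓝 (((Q.eval a / P2.eval a : ℝ) : ℂ) / u ^ k)) := by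
    have h0 : ContinuousAt
        (fun ρ : ℝ => aeval ((a : ℂ) + ρ * u) Q / aeval ((a : ℂ) + ρ * u) P2 / u ^ k) 0 := by
      refine ((Continuous.continuousAt (by fun_prop)).div
        (Continuous.continuousAt (by fun_prop)) ?_).div_const _
      simpa [aeval_ofReal] using h2
    have h1 := h0.tendsto.mono_left (nhdsWithin_le_nhds (s := Set.Ioi (0 : ℝ)))
    simpa [aeval_ofReal] using h1
  have him' : Tendsto (fun ρ : ℝ =>
      (aeval ((a : ℂ) + ρ * u) Q / aeval ((a : ℂ) + ρ * u) P2 / u ^ k).im) (𝓝[>] 0)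
      (𝓝 (((Q.eval a / P2.eval a : ℝ) : ℂ) / u ^ k).im) :=
    (Complex.continuous_im.tendsto _).comp hc
  refine le_of_tendsto him' ?_
  filter_upwards [self_mem_nhdsWithin] with ρ (hρ : 0 < ρ)
  have h := him ((a : ℂ) + ρ * u) (by simp; positivity)
  have e : aeval ((a : ℂ) + ρ * u) Q / (((a : ℂ) + ρ * u - a) ^ k * aeval ((a : ℂ) + ρ * u) P2)
      = (((ρ ^ k)⁻¹ : ℝ) : ℂ) *
        (aeval ((a : ℂ) + ρ * u) Q / aeval ((a : ℂ) + ρ * u) P2 / u ^ k) := by
    rw [add_sub_cancel_left, mul_pow]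
    push_cast
    ring
  rw [e, Complex.im_ofReal_mul] at h
  exact nonpos_of_mul_nonpos_right h (by positivity) |> id

/-- A pole has order one and positive residue. -/
theorem pole_simple {Q P2 : ℝ[X]} {a : ℝ} {k : ℕ} (h2 : P2.eval a ≠ 0) (hQ : Q.eval a ≠ 0)
    (hk : 1 ≤ k) (him : ∀ z : ℂ, 0 < z.im → (aeval z Q / ((z - a) ^ k * aeval z P2)).im ≤ 0) :
    k = 1 ∧ 0 ≤ Q.eval a / P2.eval a := by
  have key : ∀ θ : ℝ, 0 < θ → θ < Real.pi →
      -(Q.eval a / P2.eval a) * Real.sin (k * θ) ≤ 0 := by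
    intro θ h0 hπ
    have h := im_const_div_pow_nonpos h2 him (u := Complex.exp (θ * Complex.I))
      (by rw [Complex.exp_ofReal_mul_I_im]; exact Real.sin_pos_of_pos_of_lt_pi h0 hπ)
    rw [← Complex.exp_nat_mul, div_eq_mul_inv, ← Complex.exp_neg,
      show -((k : ℂ) * (θ * Complex.I)) = ((-(k * θ) : ℝ) : ℂ) * Complex.I by push_cast; ring,
      Complex.im_ofReal_mul, Complex.exp_ofReal_mul_I_im, Real.sin_neg] at h
    linarith
  have hc : 0 ≤ Q.eval a / P2.eval a := by
    have hθ : (k : ℝ) * (Real.pi / (2 * k)) = Real.pi / 2 := by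
      have : (0 : ℝ) < k := by exact_mod_cast hk
      field_simp
    have h := key (Real.pi / (2 * k)) (by positivity) ?_
    · rw [hθ, Real.sin_pi_div_two] at h
      linarith
    · have : (1 : ℝ) ≤ k := by exact_mod_cast hk
      rw [div_lt_iff₀ (by positivity)]
      nlinarith [Real.pi_pos]
  refine ⟨?_, hc⟩
  by_contra hne
  have hk2 : (2 : ℝ) ≤ k := by exact_mod_cast (show 2 ≤ k by omega)
  have hθ : (k : ℝ) * (3 * Real.pi / (2 * k)) = Real.pi / 2 + Real.pi := by field_simp; ring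
  have h := key (3 * Real.pi / (2 * k)) (by positivity) ?_
  · rw [hθ, Real.sin_add_pi, Real.sin_pi_div_two] at h
    exact (div_ne_zero hQ h2) (le_antisymm (by linarith) hc)
  · rw [div_lt_iff₀ (by positivity)]
    nlinarith [Real.pi_pos]

/-- Partial fractions when `P` and `Q` have no common real zero. -/
theorem exists_Stc_of_coprime {P Q : ℝ[X]} (hP : P.Monic) (hdeg : Q.degree < P.degree)
    (hnz : ∀ z : ℂ, 0 < z.im → aeval z P ≠ 0)
    (him : ∀ z : ℂ, 0 < z.im → (aeval z Q / aeval z P).im ≤ 0)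
    (hco : ∀ a : ℝ, P.eval a = 0 → Q.eval a ≠ 0) :
    ∃ (m : ℕ) (w lam : Fin m → ℝ), (∀ i, 0 ≤ w i) ∧ (∀ i, P.eval (lam i) = 0) ∧
      ∑ i, w i = Q.coeff (P.natDegree - 1) ∧
      ∀ z : ℂ, aeval z P ≠ 0 → aeval z Q / aeval z P = Stc w lam z := by
  classical
  have hP0 : P ≠ 0 := hP.ne_zero
  have simple : ∀ a : ℝ, P.eval a = 0 → ∀ P1 : ℝ[X], P = (X - C a) * P1 →
      P1.eval a ≠ 0 ∧ 0 ≤ Q.eval a / P1.eval a := by
    intro a ha P1 h1
    obtain ⟨P2, hP2⟩ := P.pow_rootMultiplicity_dvd a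
    have hk : 1 ≤ P.rootMultiplicity a := (rootMultiplicity_pos hP0).2 ha
    have h2 : P2.eval a ≠ 0 := by
      intro h
      obtain ⟨P3, hP3⟩ := dvd_iff_isRoot.2 h
      have : (X - C a) ^ (P.rootMultiplicity a + 1) ∣ P :=
        ⟨P3, by rw [pow_succ, mul_assoc, ← hP3, ← hP2]⟩
      have := (le_rootMultiplicity_iff hP0).2 this
      omega
    obtain ⟨hk1, hc⟩ := pole_simple h2 (hco a ha) hk fun z hz => by
      have h := him z hz
      rw [hP2] at h
      simpa using h
    rw [hk1, pow_one, h1] at hP2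
    have e : P1 = P2 := mul_left_cancel₀ (X_sub_C_ne_zero a) hP2
    exact e ▸ ⟨h2, hc⟩
  set s : Finset ℝ := P.roots.toFinset with hs
  have hmem : ∀ {a : ℝ}, a ∈ s ↔ P.eval a = 0 := by
    intro a
    simp [hs, mem_roots hP0]
  set N : ℝ[X] := ∏ a ∈ s, (X - C a) with hN
  have hNm : N.Monic := monic_prod_of_monic _ _ fun a _ => monic_X_sub_C a
  have hdvd : N ∣ P := by
    rw [hN, Finset.prod_eq_multiset_prod, hs, Multiset.toFinset_val]
    exact (Multiset.prod_dvd_prod_of_le (Multiset.map_le_map (Multiset.dedup_le _))).trans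
      (prod_multiset_X_sub_C_dvd P)
  obtain ⟨R, hR⟩ := hdvd
  have hRm : R.Monic := hNm.of_mul_monic_left (hR ▸ hP)
  have hR1 : R = 1 := by
    refine hRm.natDegree_eq_zero.1 ?_
    by_contra hne
    obtain ⟨z, hz⟩ := IsAlgClosed.exists_aeval_eq_zero ℂ R (fun h => hne
      (natDegree_eq_zero_iff_degree_le_zero.2 h.le))
    have hzP : aeval z P = 0 := by rw [hR, map_mul, hz, mul_zero]
    rcases eq_or_ne z.im 0 with h | h
    · have hzr : z = (z.re : ℂ) := Complex.ext (by simp) (by simp [h])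
      rw [hzr, aeval_ofReal] at hz hzP
      have hRa : R.eval z.re = 0 := by exact_mod_cast hz
      have hPa : P.eval z.re = 0 := by exact_mod_cast hzP
      have hsplit : P = (X - C z.re) * ((∏ b ∈ s.erase z.re, (X - C b)) * R) := by
        rw [← mul_assoc, Finset.mul_prod_erase s (fun b => X - C b) (hmem.2 hPa), ← hN, ← hR]
      exact (simple z.re hPa _ hsplit).1 (by simp [hRa])
    · exact aeval_ne_zero_of_upper hnz h hzP
  rw [hR1, mul_one] at hR
  set w : ℝ → ℝ := fun a => Q.eval a / (∏ b ∈ s.erase a, (X - C b)).eval a with hw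
  have hsplit : ∀ a ∈ s, P = (X - C a) * ∏ b ∈ s.erase a, (X - C b) := fun a ha => by
    rw [Finset.mul_prod_erase s (fun b => X - C b) ha, ← hN, hR]
  have hne : ∀ a ∈ s, (∏ b ∈ s.erase a, (X - C b)).eval a ≠ 0 := fun a ha =>
    (simple a (hmem.1 ha) _ (hsplit a ha)).1
  have hcard : P.natDegree = s.card := by
    rw [hR, hN, natDegree_finsetProd_X_sub_C_eq_card]
  have hQ : Q = ∑ a ∈ s, C (w a) * ∏ b ∈ s.erase a, (X - C b) := by
    refine eq_of_degrees_lt_of_eval_finset_eq s ?_ ?_ ?_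
    · rwa [degree_eq_natDegree hP0, hcard] at hdeg
    · refine (degree_sum_le _ _).trans_lt ((Finset.sup_lt_iff (WithBot.bot_lt_coe _)).2 ?_)
      intro a ha
      rw [← smul_eq_C_mul]
      refine (degree_smul_le _ _).trans_lt ?_
      rw [degree_eq_natDegree (monic_prod_of_monic _ _ fun b _ => monic_X_sub_C b).ne_zero,
        natDegree_finsetProd_X_sub_C_eq_card, Nat.cast_lt]
      exact Finset.card_lt_card (Finset.erase_ssubset ha)
    · intro a ha
      rw [eval_finsetSum, Finset.sum_eq_single a]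
      · rw [eval_mul, eval_C, hw]
        exact (div_mul_cancel₀ _ (hne a ha)).symm
      · intro b _ hba
        rw [eval_mul, eval_prod, Finset.prod_eq_zero (Finset.mem_erase.2 ⟨Ne.symm hba, ha⟩)]
          <;> simp
      · exact fun h => absurd ha h
  refine ⟨s.card, fun i => w (s.equivFin.symm i), fun i => (s.equivFin.symm i : ℝ),
    fun i => ?_, fun i => hmem.1 (s.equivFin.symm i).2, ?_, fun z hz => ?_⟩
  · exact (simple _ (hmem.1 (s.equivFin.symm i).2) _ (hsplit _ (s.equivFin.symm i).2)).2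
  · rw [Equiv.sum_comp s.equivFin.symm (fun a : s => w a), Finset.sum_coe_sort s w]
    conv_rhs => rw [hQ, finsetSum_coeff]
    refine Finset.sum_congr rfl fun a ha => ?_
    have hm : (∏ b ∈ s.erase a, (X - C b)).natDegree = P.natDegree - 1 := by
      rw [natDegree_finsetProd_X_sub_C_eq_card, Finset.card_erase_of_mem ha, hcard]
    rw [coeff_C_mul, ← hm,
      (monic_prod_of_monic _ _ fun b _ => monic_X_sub_C b).coeff_natDegree, mul_one]
  · unfold Stc
    rw [Equiv.sum_comp s.equivFin.symm (fun a : s => ((w a : ℝ) : ℂ) / (z - ((a : ℝ) : ℂ))),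
      Finset.sum_coe_sort s (fun a => ((w a : ℝ) : ℂ) / (z - (a : ℂ)))]
    conv_lhs => arg 1; rw [hQ, map_sum]
    rw [Finset.sum_div]
    refine Finset.sum_congr rfl fun a ha => ?_
    have hPz : aeval z P = (z - a) * aeval z (∏ b ∈ s.erase a, (X - C b)) := by
      conv_lhs => rw [hsplit a ha]
      simp
    rw [hPz] at hz ⊢
    rw [map_mul, aeval_C, mul_div_mul_right _ _ (right_ne_zero_of_mul hz)]
    rfl

/-- Partial fractions with nonnegative weights. -/
theorem exists_Stc {P Q : ℝ[X]} (hP : P.Monic) (hdeg : Q.degree < P.degree)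
    (hnz : ∀ z : ℂ, 0 < z.im → aeval z P ≠ 0)
    (him : ∀ z : ℂ, 0 < z.im → (aeval z Q / aeval z P).im ≤ 0) :
    ∃ (m : ℕ) (w lam : Fin m → ℝ), (∀ i, 0 ≤ w i) ∧ (∀ i, P.eval (lam i) = 0) ∧
      ∑ i, w i = Q.coeff (P.natDegree - 1) ∧
      ∀ z : ℂ, aeval z P ≠ 0 → aeval z Q / aeval z P = Stc w lam z := by
  generalize hn : P.natDegree = n
  induction n using Nat.strong_induction_on generalizing P Q with
  | _ n ih =>
    subst hn
    by_cases hco : ∀ a : ℝ, P.eval a = 0 → Q.eval a ≠ 0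
    · exact exists_Stc_of_coprime hP hdeg hnz him hco
    push Not at hco
    obtain ⟨a, ha, hQa⟩ := hco
    obtain ⟨P1, hP1⟩ := dvd_iff_isRoot.2 ha
    obtain ⟨Q1, hQ1⟩ := dvd_iff_isRoot.2 hQa
    have hP1m : P1.Monic := (monic_X_sub_C a).of_mul_monic_left (hP1 ▸ hP)
    have hnd : P.natDegree = P1.natDegree + 1 := by
      rw [hP1, natDegree_mul (X_sub_C_ne_zero a) hP1m.ne_zero, natDegree_X_sub_C, add_comm]
    have hdeg1 : Q1.degree < P1.degree := by
      rw [hQ1, hP1, degree_mul, degree_mul, degree_X_sub_C] at hdeg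
      exact (WithBot.add_lt_add_iff_left WithBot.one_ne_bot).1 hdeg
    have hza : ∀ z : ℂ, 0 < z.im → z - a ≠ 0 := fun z hz h => by
      rw [sub_eq_zero] at h
      simp [h] at hz
    obtain ⟨m, w, lam, hw, hl, hs, hf⟩ := ih P1.natDegree (by omega) hP1m hdeg1
      (fun z hz h => hnz z hz (by rw [hP1, map_mul, h, mul_zero]))
      (fun z hz => by
        have h := him z hz
        rw [hP1, hQ1, map_mul, map_mul] at h
        rwa [mul_div_mul_left _ _ (by simpa using hza z hz)] at h) rfl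
    refine ⟨m, w, lam, hw, fun i => by rw [hP1, eval_mul, hl i, mul_zero], ?_, fun z hz => ?_⟩
    · rw [hs, hnd, Nat.add_sub_cancel, hQ1]
      rcases Nat.eq_zero_or_pos P1.natDegree with h | h
      · have hQ0 : Q1 = 0 := by
          rw [eq_one_of_monic_natDegree_zero hP1m h, degree_one] at hdeg1
          exact degree_eq_bot.1 (Nat.WithBot.lt_zero_iff.1 hdeg1)
        simp [hQ0]
      · obtain ⟨j, hj⟩ := Nat.exists_eq_add_of_le' h
        rw [hj, Nat.add_sub_cancel, coeff_X_sub_C_mul]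
        have : Q1.coeff (j + 1) = 0 := coeff_eq_zero_of_degree_lt (lt_of_lt_of_le hdeg1 (by
          rw [degree_eq_natDegree hP1m.ne_zero, hj]))
        simp [this]
    · rw [hP1, map_mul] at hz
      rw [hP1, hQ1, map_mul, map_mul, mul_div_mul_left _ _ (left_ne_zero_of_mul hz),
        hf z (right_ne_zero_of_mul hz)]

/-- The real form of the partial fractions. -/
theorem exists_St {P Q : ℝ[X]} (hP : P.Monic) (hdeg : Q.degree < P.degree)
    (hnz : ∀ z : ℂ, 0 < z.im → aeval z P ≠ 0)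
    (him : ∀ z : ℂ, 0 < z.im → (aeval z Q / aeval z P).im ≤ 0) :
    ∃ (m : ℕ) (w lam : Fin m → ℝ), (∀ i, 0 ≤ w i) ∧ (∀ i, P.eval (lam i) = 0) ∧
      ∑ i, w i = Q.coeff (P.natDegree - 1) ∧
      ∀ s : ℝ, P.eval s ≠ 0 → Q.eval s / P.eval s = StSum w lam s := by
  obtain ⟨m, w, lam, hw, hl, hs, hf⟩ := exists_Stc hP hdeg hnz him
  refine ⟨m, w, lam, hw, hl, hs, fun s hPs => ?_⟩
  have h := hf s (by rw [aeval_ofReal]; exact_mod_cast hPs)
  rw [aeval_ofReal, aeval_ofReal] at h
  apply Complex.ofReal_injective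
  simpa [Stc, StSum] using h

section moments

variable {ι κ : Type*} [Fintype ι] [Fintype κ]

theorem pow_mul_St_sub_tendsto (w lam : ι → ℝ) (k : ℕ) :
    Tendsto (fun s => s ^ (k + 1) * StSum w lam s - ∑ j ∈ Finset.range k, mom w lam j * s ^ (k - j))
      atTop (𝓝 (mom w lam k)) := by
  induction k with
  | zero =>
    simp only [zero_add, pow_one, Finset.range_zero, Finset.sum_empty, sub_zero, mom, pow_zero,
      mul_one, StSum, Finset.mul_sum]
    refine tendsto_finsetSum _ fun i _ => ?_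
    have h : Tendsto (fun s : ℝ => w i + w i * lam i / (s - lam i)) atTop (𝓝 (w i + 0)) :=
      tendsto_const_nhds.add (tendsto_const_nhds.div_atTop
        (tendsto_atTop_add_const_right _ (-lam i) tendsto_id))
    rw [add_zero] at h
    refine h.congr' ?_
    filter_upwards [eventually_gt_atTop (lam i)] with s hs
    have : s - lam i ≠ 0 := (sub_pos.2 hs).ne'
    field_simp
    ring
  | succ k ih =>
    have h : Tendsto (fun s => ∑ i, w i * lam i ^ (k + 1) * (s / (s - lam i))) atTop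
        (𝓝 (mom w lam (k + 1))) := by
      unfold mom
      refine tendsto_finsetSum _ fun i _ => ?_
      have h1 : Tendsto (fun s : ℝ => 1 + lam i / (s - lam i)) atTop (𝓝 (1 + 0)) :=
        tendsto_const_nhds.add (tendsto_const_nhds.div_atTop
          (tendsto_atTop_add_const_right _ (-lam i) tendsto_id))
      rw [add_zero] at h1
      have h2 := h1.const_mul (w i * lam i ^ (k + 1))
      rw [mul_one] at h2
      refine h2.congr' ?_
      filter_upwards [eventually_gt_atTop (lam i)] with s hs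
      have : s - lam i ≠ 0 := (sub_pos.2 hs).ne'
      field_simp
      ring
    refine h.congr' ?_
    have hev : ∀ᶠ s in atTop, ∀ i, lam i < s :=
      eventually_all.2 fun i => eventually_gt_atTop (lam i)
    filter_upwards [hev] with s hs
    have key : ∀ m : ℕ, s ^ (m + 1) * StSum w lam s - ∑ j ∈ Finset.range (m + 1),
        mom w lam j * s ^ (m - j) = ∑ i, w i * lam i ^ (m + 1) / (s - lam i) := by
      intro m
      simp only [StSum, mom, Finset.mul_sum, Finset.sum_mul]
      rw [Finset.sum_comm, ← Finset.sum_sub_distrib]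
      refine Finset.sum_congr rfl fun i _ => ?_
      have hne : s - lam i ≠ 0 := (sub_pos.2 (hs i)).ne'
      have hg := geom_sum₂_mul (lam i) s (m + 1)
      simp only [Nat.add_sub_cancel] at hg
      simp only [mul_assoc, ← Finset.mul_sum]
      field_simp
      linear_combination (w i) * hg
    have h3 := key k
    rw [show ∑ j ∈ Finset.range (k + 1), mom w lam j * s ^ (k + 1 - j)
      = s * ∑ j ∈ Finset.range (k + 1), mom w lam j * s ^ (k - j) by
        rw [Finset.mul_sum]
        refine Finset.sum_congr rfl fun j hj => ?_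
        rw [Nat.succ_sub (Nat.lt_succ_iff.1 (Finset.mem_range.1 hj)), pow_succ]
        ring, pow_succ' s (k + 1), mul_assoc, ← mul_sub, h3, Finset.mul_sum]
    refine Finset.sum_congr rfl fun i _ => ?_
    ring

/-- Moments below `n` agree when the difference is `o(s⁻ⁿ)` at infinity. -/
theorem mom_eq_of_tendsto {w lam : ι → ℝ} {w' lam' : κ → ℝ} {n : ℕ}
    (h : Tendsto (fun s => s ^ n * (StSum w lam s - StSum w' lam' s)) atTop (𝓝 0)) :
    ∀ k < n, mom w lam k = mom w' lam' k := by
  intro k hk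
  induction k using Nat.strong_induction_on with
  | _ k ih =>
    have h1 := (pow_mul_St_sub_tendsto w lam k).sub (pow_mul_St_sub_tendsto w' lam' k)
    have h2 : Tendsto (fun s => s ^ (k + 1) * (StSum w lam s - StSum w' lam' s)) atTop (𝓝 0) := by
      have h3 : Tendsto (fun s : ℝ => (s⁻¹) ^ (n - (k + 1)) *
          (s ^ n * (StSum w lam s - StSum w' lam' s))) atTop (𝓝 ((0 : ℝ) ^ (n - (k + 1)) * 0)) :=
        (tendsto_inv_atTop_zero.pow _).mul h
      rw [mul_zero] at h3
      refine h3.congr' ?_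
      filter_upwards [eventually_gt_atTop (0 : ℝ)] with s hs
      rw [← mul_assoc]
      congr 1
      rw [inv_pow, inv_mul_eq_div, div_eq_iff (by positivity), ← pow_add]
      congr 1
      omega
    refine sub_eq_zero.1 (tendsto_nhds_unique (h1.congr' (Eventually.of_forall fun s => ?_)) h2)
    rw [Finset.sum_congr rfl fun j hj => by
      rw [ih j (Finset.mem_range.1 hj) ((Finset.mem_range.1 hj).trans hk)]]
    ring

/-- Moments below `n` agree when the cross difference has degree lower by more than `n`. -/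
theorem mom_eq_of_degree {w lam : ι → ℝ} {w' lam' : κ → ℝ} {P Q P' Q' : ℝ[X]} {n : ℕ}
    (hP : P ≠ 0) (hP' : P' ≠ 0) (hf : ∀ s, P.eval s ≠ 0 → Q.eval s / P.eval s = StSum w lam s)
    (hf' : ∀ s, P'.eval s ≠ 0 → Q'.eval s / P'.eval s = StSum w' lam' s)
    (hd : (X ^ n * (Q * P' - Q' * P)).degree < (P * P').degree) :
    ∀ k < n, mom w lam k = mom w' lam' k := by
  refine mom_eq_of_tendsto ?_
  refine (div_tendsto_atTop_zero_of_degree_lt _ _ hd).congr' ?_
  have ev : ∀ R : ℝ[X], R ≠ 0 → ∀ᶠ s in atTop, R.eval s ≠ 0 := fun R hR => by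
    obtain ⟨b, hb⟩ := (finite_setOfPred_isRoot hR).bddAbove
    filter_upwards [eventually_gt_atTop b] with s hs h
    exact absurd (hb h) (not_le.2 hs)
  have e1 := ev P hP
  have e2 := ev P' hP'
  filter_upwards [e1, e2] with s h h'
  rw [← hf s h, ← hf' s h', eval_mul, eval_mul, eval_pow, eval_X, eval_sub, eval_mul, eval_mul,
    div_sub_div _ _ h h']
  ring

end moments

end Vale.Agent.P078.Local
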