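import Vale.Agent.P078.Local.Start.Uniform
import Vale.Agent.P078.Local.Cluster.Basic

/-!
# The tail bound for `Φ` and `m`

Along `Z + s` both `Φ_l` and `m_lc` are Stieltjes sums of mass `1`, respectively
`∑ h_kc |x_lk|²`, with poles in `(-L, -g)` when `Z - g` and `(L - Z, -x)` are valid. Cluster
agreement makes their moments agree for a ball and the whole set, so they are exponentially close.
-/

noncomputable section

namespace Vale.Agent.P078.Local

open Polynomial
open scoped ComplexConjugate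

variable {ι : Type*} [DecidableEq ι] {r : ℕ}
variable {S T B : Finset ι} {h : ι → Fin r → ℝ} {Z : ι → ℝ} {x : ι → ι → ℂ} {l : ι} {g L : ℝ}

theorem ray_real (T : Finset ι) (Z : ι → ℝ) (s : ℝ) {u : ι} (hu : u ∈ T) :
    ray T Z s u = ofR (fun v => Z v + s) u := by simp [ray, ofR, hu]

/-- The roots along `Z + s` lie strictly between `-L` and `-g`. -/
theorem root_window (hh : IsLaw T h) (hg : Valid T h (fun u => Z u - g) x)
    (hL : Valid T h (fun u => L - Z u) (-x)) {s : ℝ}
    (hs : qR T h (fun u => Z u + s) x = 0) : -L < s ∧ s < -g := by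
  constructor
  · by_contra hle
    have h1 := hL.shift hh (t := -L - s) (by linarith [not_lt.1 hle])
    apply (valid_iff.1 h1).2 0 le_rfl
    have h2 := (isHyp hh).hom (-1 : ℂ) (ofR (fun u => Z u + s), x)
    have e : (-1 : ℂ) • (ofR (fun u => Z u + s), x)
        = (ofR (fun u => L - Z u + (-L - s) + 0), -x) := by
      refine Prod.ext (funext fun u => ?_) (by ext; simp)
      simp [ofR]
      ring
    rw [e] at h2
    change q T h _ _ = _ at h2
    rw [h2, q_ofR hg.herm, hs]
    simp
  · by_contra hle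
    have h1 := (hg.shift hh (t := s + g) (by linarith [not_lt.1 hle])).pos hh
    simp only [show ∀ u, Z u - g + (s + g) = Z u + s from fun u => by ring, hs, lt_irrefl] at h1

/-- Real polynomials of `q` along `Z + s`. -/
theorem exists_linePoly (hh : IsLaw T h) (hx : IsHerm x) (Z : ι → ℝ) :
    ∃ P : ℝ[X], P.Monic ∧ P.natDegree = T.card ∧
      (∀ s : ℂ, aeval s P = q T h (fun u => (Z u : ℂ) + s) x) ∧
      ∀ s : ℝ, P.eval s = qR T h (fun u => Z u + s) x := by
  obtain ⟨P, hd, hc, -, he⟩ := exists_rayPoly hx T (subset_refl T) (fun k hk => (hh k hk).2) Z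
  have hc1 : P.coeff T.card = 1 := by
    rw [hc, Finset.sdiff_self, qR, q_empty, Complex.one_re]
  have hdeg : P.natDegree = T.card :=
    le_antisymm hd (le_natDegree_of_ne_zero (by rw [hc1]; exact one_ne_zero))
  have he' : ∀ s : ℂ, aeval s P = q T h (fun u => (Z u : ℂ) + s) x := fun s => by
    rw [he]; exact q_congr (fun _ _ => rfl) (fun u hu => by simp [ray, hu]) fun _ _ _ _ => rfl
  refine ⟨P, by rw [Monic, leadingCoeff, hdeg, hc1], hdeg, he', fun s => ?_⟩
  apply Complex.ofReal_injective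
  rw [← aeval_ofReal, he', ← q_ofR hx]
  exact q_congr (fun _ _ => rfl) (fun u _ => by simp [ofR]) fun _ _ _ _ => rfl

theorem shifted_ne_zero (hh : IsLaw T h) (hx : IsHerm x) {s : ℂ} (hs : 0 < s.im) :
    q T h (fun u => (Z u : ℂ) + s) x ≠ 0 :=
  q_ne_zero hh (fun u _ => by simp [hs]) fun a _ b _ => hx a b

/-- `Φ_l(Z + s)` as a Stieltjes sum, with the polynomials it is the ratio of. -/
theorem exists_phi_St (hh : IsLaw T h) (hl : l ∈ T) (hg : Valid T h (fun u => Z u - g) x)
    (hL : Valid T h (fun u => L - Z u) (-x)) :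
    ∃ (n : ℕ) (w lam : Fin n → ℝ) (P Q : ℝ[X]),
      (∀ i, 0 ≤ w i) ∧ (∀ i, -L < lam i ∧ lam i < -g) ∧ ∑ i, w i = 1 ∧
      (∀ s, -g ≤ s → qR (T.erase l) h (fun u => Z u + s) x / qR T h (fun u => Z u + s) x
        = StSum w lam s) ∧
      P.Monic ∧ P.natDegree = T.card ∧
      (∀ s : ℂ, aeval s P = q T h (fun u => (Z u : ℂ) + s) x) ∧
      (∀ s : ℂ, aeval s Q = q (T.erase l) h (fun u => (Z u : ℂ) + s) x) ∧
      ∀ s, P.eval s ≠ 0 → Q.eval s / P.eval s = StSum w lam s := by
  have hx := hg.herm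
  have hh' : IsLaw (T.erase l) h := hh.mono (Finset.erase_subset _ _)
  obtain ⟨P, hPm, hPd, hPa, hPe⟩ := exists_linePoly hh hx Z
  obtain ⟨Q, hQm, hQd, hQa, hQe⟩ := exists_linePoly hh' hx Z
  have hcard : T.card = (T.erase l).card + 1 := (Finset.card_erase_add_one hl).symm
  obtain ⟨n, w, lam, hw, hlam, hs, hf⟩ := exists_St (Q := Q) hPm
    (by
      rw [degree_eq_natDegree hQm.ne_zero, degree_eq_natDegree hPm.ne_zero, hPd, hQd,
        Nat.cast_lt]
      omega)
    (fun s hs => by rw [hPa]; exact shifted_ne_zero hh hx hs)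
    (fun s hs => by
      rw [hPa, hQa]
      exact im_ratio_nonpos hh hx hl (fun u _ => by simp [hs.le]) (shifted_ne_zero hh hx hs))
  refine ⟨n, w, lam, P, Q, hw, fun i => root_window hh hg hL (by rw [← hPe, hlam i]), ?_,
    fun s hs' => ?_, hPm, hPd, hPa, hQa, hf⟩
  · rw [hs, hPd, hcard, Nat.add_sub_cancel, ← hQd, hQm.coeff_natDegree]
  · rw [← hPe, ← hQe]
    refine hf s fun h0 => ?_
    rw [hPe] at h0
    linarith [(root_window hh hg hL h0).2]

/-- `q` on two sites of one pure colour. -/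
theorem q_two_same {k : ι} (hkl : k ≠ l) {c : Fin r} {g : ι → Fin r → ℝ}
    (hgl : g l = Pi.single c 1) (hgk : g k = Pi.single c 1) {z : ι → ℂ} :
    q {l, k} g z x = (z l - x l l) * (z k - x k k) - x l k * x k l := by
  let f : Fin 2 ↪ ι := ⟨![l, k], by
    intro a b hab
    fin_cases a <;> fin_cases b <;> simp_all⟩
  have h0 : f 0 = l := rfl
  have h1 : f 1 = k := rfl
  have hmap : ({l, k} : Finset ι) = (Finset.univ : Finset (Fin 2)).map f := by
    ext u; simp [Fin.exists_fin_two, h0, h1, eq_comm]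
  rw [hmap, q_map]
  have hgc : ∀ a : Fin 2, g (f a) = Pi.single c 1 := Fin.forall_fin_two.2 ⟨h0 ▸ hgl, h1 ▸ hgk⟩
  rw [q, Finset.sum_eq_single (fun _ => c)]
  · rw [Finset.prod_eq_one fun a _ => by rw [hgc]; simp, one_mul]
    let e : Fin 2 ≃ ↥(Finset.univ : Finset (Fin 2)) :=
      (Equiv.subtypeUnivEquiv Finset.mem_univ).symm
    have he : ∀ a, ((e a : ↥(Finset.univ : Finset (Fin 2))) : Fin 2) = a := fun _ => rfl
    have hne : (e 0 : ↥(Finset.univ : Finset (Fin 2))) ≠ e 1 := e.injective.ne (by decide)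
    rw [← Matrix.det_submatrix_equiv_self e, Matrix.det_fin_two]
    simp only [Matrix.submatrix_apply, colMatrix, if_true, he, h0, h1, if_neg hne, if_neg hne.symm]
    ring
  · intro d' _ hd'
    obtain ⟨a, ha⟩ := Function.ne_iff.1 hd'
    rw [Finset.prod_eq_zero (Finset.mem_univ a) (by rw [hgc]; simp [Pi.single_eq_of_ne ha]),
      zero_mul]
  · simp

/-- `q` on two sites, the first of pure colour `c` with level `0`. -/
theorem qR_pair {k : ι} (hkl : k ≠ l) (hsum : ∑ d, h k d = 1) (hx : IsHerm x) (hd : x l l = 0)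
    (hdk : x k k = 0) (c : Fin r) {Z' : ι → ℝ} (hZ : Z' l = 0) :
    qR {l, k} (pure h l c) Z' x = -(h k c * Complex.normSq (x l k)) := by
  have hk : k ∈ ({l, k} : Finset ι) := by simp
  have he : ({l, k} : Finset ι).erase k = {l} := by
    ext u; by_cases hu : u = k <;> simp [hu, hkl]
  have hsum' : ∑ d, pure h l c k d = 1 := by simp [Local.pure, Function.update_of_ne hkl, hsum]
  have hsingle : q {l} (pure h l c) (ofR Z') x = 0 := by
    rw [q_of_distinct (col := fun _ => c) (fun u hu => by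
      simp [Finset.mem_singleton.1 hu, Local.pure]) (by simp) (fun u hu => by
      simp [Finset.mem_singleton.1 hu, hd])]
    exact Finset.prod_eq_zero (Finset.mem_univ ⟨l, Finset.mem_singleton_self l⟩) (by simp [ofR, hZ])
  have hsplit := q_split hk hsum' (ofR Z') x
  rw [he, hsingle, mul_zero, add_zero] at hsplit
  have hone : ∀ d, q {l, k} (pure (pure h l c) k d) (Function.update (ofR Z') k 0) x
      = if c = d then -(Complex.normSq (x l k) : ℂ) + 0 else 0 := by
    intro d
    rcases eq_or_ne c d with rfl | hcd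
    · simp only [if_true, add_zero]
      rw [q_two_same hkl (c := c) (by simp [Local.pure, Ne.symm hkl]) (by simp [Local.pure])]
      simp only [Function.update_self, Function.update_of_ne (Ne.symm hkl), ofR, hZ, hd,
        Complex.ofReal_zero, sub_zero, zero_mul, zero_sub]
      rw [← hx l k, Complex.mul_conj]
    · rw [if_neg hcd]
      have hK : ∀ u ∈ ({l, k} : Finset ι),
          pure (pure h l c) k d u = Pi.single (if u = l then c else d) 1 := by
        intro u hu
        rcases Finset.mem_insert.1 hu with rfl | hu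
        · simp [Local.pure, Ne.symm hkl]
        · simp [Finset.mem_singleton.1 hu, Local.pure, hkl]
      have hinj : Set.InjOn (fun u => if u = l then c else d) ({l, k} : Finset ι) := by
        intro a ha b hb hab
        simp only [Finset.coe_insert, Finset.coe_singleton, Set.mem_insert_iff,
          Set.mem_singleton_iff] at ha hb
        rcases ha with rfl | rfl <;> rcases hb with rfl | rfl <;>
          simp_all [Ne.symm hkl, Ne.symm hcd]
      have hdiag : ∀ u ∈ ({l, k} : Finset ι), x u u = 0 := by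
        intro u hu
        rcases Finset.mem_insert.1 hu with rfl | hu
        · exact hd
        · rw [Finset.mem_singleton.1 hu]; exact hdk
      rw [q_of_distinct hK hinj hdiag]
      exact Finset.prod_eq_zero (Finset.mem_univ ⟨k, hk⟩) (by simp)
  rw [qR, hsplit, q_linear hk]
  simp only [hone, mul_ite, mul_zero, add_zero, Finset.sum_ite_eq, Finset.mem_univ, if_true]
  simp [Local.pure, Function.update_of_ne hkl]

/-- `m_lc(Z + s)` as a Stieltjes sum, with the polynomials it is the ratio of. -/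
theorem exists_m_St (hh : IsLaw T h) (hl : l ∈ T) (hd : ∀ u ∈ T, x u u = 0) (c : Fin r)
    (hg : Valid T h (fun u => Z u - g) x) (hL : Valid T h (fun u => L - Z u) (-x)) :
    ∃ (n : ℕ) (w lam : Fin n → ℝ) (P Q : ℝ[X]),
      (∀ i, 0 ≤ w i) ∧ (∀ i, -L < lam i ∧ lam i < -g) ∧
      ∑ i, w i = ∑ k ∈ T.erase l, h k c * Complex.normSq (x l k) ∧
      (∀ s, -g ≤ s → m T l h c (fun u => Z u + s) x = StSum w lam s) ∧
      P.Monic ∧ P.natDegree + 1 = T.card ∧
      (∀ s : ℂ, aeval s P = q (T.erase l) h (fun u => (Z u : ℂ) + s) x) ∧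
      (∀ s : ℂ, aeval s Q = -q T (pure h l c) (Function.update (fun u => (Z u : ℂ) + s) l 0) x) ∧
      ∀ s, P.eval s ≠ 0 → Q.eval s / P.eval s = StSum w lam s := by
  have hx := hg.herm
  have hh' : IsLaw (T.erase l) h := hh.mono (Finset.erase_subset _ _)
  have hcard : T.card = (T.erase l).card + 1 := (Finset.card_erase_add_one hl).symm
  obtain ⟨P, hPm, hPd, hPa, hPe⟩ := exists_linePoly hh' hx Z
  obtain ⟨R, hRd, hRc, hRb, hRa⟩ := exists_rayPoly (K := T.erase l) hx T (Finset.erase_subset _ _)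
    (fun k hk => ((hh.pure l c) k (Finset.mem_of_mem_erase hk)).2) (Function.update Z l 0)
    (h := pure h l c)
  have hTl : T \ T.erase l = {l} := by
    ext u; by_cases hu : u = l <;> simp [hu, hl]
  have hRa' : ∀ s : ℂ, aeval s (-R)
      = -q T (pure h l c) (Function.update (fun u => (Z u : ℂ) + s) l 0) x := by
    intro s
    rw [map_neg, hRa]
    congr 1
    refine q_congr (fun _ _ => rfl) (fun u hu => ?_) fun _ _ _ _ => rfl
    rcases eq_or_ne u l with rfl | hne
    · simp [ray]
    · simp [ray, hne, hu]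
  have htop : R.coeff (T.erase l).card = 0 := by
    rw [hRc, hTl, qR, q_of_distinct (col := fun _ => c) (fun u hu => by
      simp [Finset.mem_singleton.1 hu, Local.pure]) (by simp) (fun u hu => by
      simp [Finset.mem_singleton.1 hu, hd l hl]),
      Finset.prod_eq_zero (Finset.mem_univ ⟨l, Finset.mem_singleton_self l⟩) (by simp [ofR])]
    simp
  obtain ⟨n, w, lam, hw, hlam, hs, hf⟩ := exists_St (Q := -R) hPm
    (by
      rw [degree_neg, degree_eq_natDegree hPm.ne_zero, hPd, degree_lt_iff_coeff_zero]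
      intro j hj
      rcases Nat.lt_or_eq_of_le hj with hj | rfl
      · exact coeff_eq_zero_of_natDegree_lt (hRd.trans_lt hj)
      · exact htop)
    (fun s hs => by rw [hPa]; exact shifted_ne_zero hh' hx hs)
    (fun s hs => by
      rw [hPa, hRa']
      set A := q (T.erase l) h (fun u => (Z u : ℂ) + s) x with hA
      have hA0 : A ≠ 0 := shifted_ne_zero hh' hx hs
      refine not_lt.1 fun hc' => ?_
      set v := -q T (pure h l c) (Function.update (fun u => (Z u : ℂ) + s) l 0) x / A with hv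
      have hne : q T (pure h l c) (Function.update (fun u => (Z u : ℂ) + s) l v) x ≠ 0 :=
        q_ne_zero (hh.pure l c) (fun u _ => by
          rcases eq_or_ne u l with rfl | hne
          · simpa using hc'
          · simp [Function.update_of_ne hne, hs]) fun a _ b _ => hx a b
      apply hne
      rw [q_update hl ((hh.pure l c) l hl).2]
      have : q (T.erase l) (pure h l c) (fun u => (Z u : ℂ) + s) x = A :=
        q_congr (fun u hu => by
          simp [Local.pure, Function.update_of_ne (Finset.ne_of_mem_erase hu)])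
          (fun _ _ => rfl) fun _ _ _ _ => rfl
      rw [this, hv, div_mul_cancel₀ _ hA0, add_neg_cancel])
  have hroot : ∀ s : ℝ, qR (T.erase l) h (fun u => Z u + s) x = 0 → -L < s ∧ s < -g := fun s h0 =>
    root_window hh' (hg.erase hh hl) (hL.erase hh hl) h0
  refine ⟨n, w, lam, P, -R, hw, fun i => hroot _ (by rw [← hPe, hlam i]), ?_, fun s hs' => ?_,
    hPm, by omega, hPa, hRa', hf⟩
  · rw [hs, hPd]
    rcases Nat.eq_zero_or_pos (T.erase l).card with h0 | hpos
    · rw [Finset.card_eq_zero.1 h0, Finset.sum_empty]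
      simp only [Finset.card_empty, Nat.zero_sub, coeff_neg]
      rw [← h0, htop, neg_zero]
    · obtain ⟨j, hj⟩ := Nat.exists_eq_add_of_le' hpos
      rw [hj, Nat.add_sub_cancel, coeff_neg, hRb j hj, ← Finset.sum_neg_distrib]
      refine Finset.sum_congr rfl fun k hk => ?_
      obtain ⟨hkl, hkT⟩ := Finset.mem_erase.1 hk
      rw [Function.update_eq_self]
      have e : T \ (T.erase l).erase k = {l, k} := by
        ext u
        by_cases hu : u = l
        · simp [hu, hl]
        · by_cases hu' : u = k <;> simp [hu, hu', hkT]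
      rw [e, qR_pair hkl (hh k hkT).2 hx (hd l hl) (hd k hkT) c (by simp), neg_neg]
  · have hPne : P.eval s ≠ 0 := fun h0 => by
      rw [hPe] at h0
      linarith [(hroot s h0).2]
    rw [← hf s hPne, m, ← hPe]
    congr 1
    apply Complex.ofReal_injective
    rw [← aeval_ofReal, hRa', Complex.ofReal_neg, neg_inj, ← q_ofR hx]
    refine q_congr (fun _ _ => rfl) (fun u _ => ?_) fun _ _ _ _ => rfl
    rcases eq_or_ne u l with rfl | hne <;> simp [ofR, *]

/-- A real polynomial that a complex one with vanishing top coefficients matches. -/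
theorem degree_mul_lt {D : ℝ[X]} {P : ℂ[X]} {N k₀ n : ℕ} (he : ∀ s : ℂ, aeval s D = P.eval s)
    (hz : ∀ k, k₀ ≤ k → P.coeff k = 0) (hn : k₀ = 0 ∨ n + k₀ ≤ N) :
    (X ^ n * D).degree < (N : WithBot ℕ) := by
  have hDP : D.map (algebraMap ℝ ℂ) = P := Polynomial.funext fun s => by
    rw [eval_map_algebraMap, he]
  rw [degree_lt_iff_coeff_zero]
  intro j hj
  rw [coeff_X_pow_mul']
  split_ifs with hnj
  · have h1 := hz (j - n) (by rcases hn with h | h <;> omega)
    rw [← hDP, coeff_map] at h1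
    exact (algebraMap ℝ ℂ).injective (h1.trans (map_zero _).symm)
  · rfl

/-- The tail bound for `Φ_l`. -/
theorem phi_tail {G : SimpleGraph ι} {R : ℕ} (hh : IsLaw S h) (hBS : B ⊆ S) (hl : l ∈ B)
    (hadj : ∀ i ∈ S, ∀ j ∈ S, i ≠ j → x i j ≠ 0 → G.Adj i j)
    (hball : ∀ v ∈ S, ∀ p : G.Walk l v, p.length ≤ R → v ∈ B) (hg0 : 0 < g) (hgL : g < L)
    (hR : 2 ≤ R) (hg : Valid S h (fun u => Z u - g) x)
    (hL : Valid S h (fun u => L - Z u) (-x)) :
    |qR (S.erase l) h Z x / qR S h Z x - qR (B.erase l) h Z x / qR B h Z x|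
      ≤ 4 * Real.exp (-(((R - 1 : ℕ) : ℝ) * Real.sqrt (g / L))) / g := by
  obtain ⟨n, w, lam, P, Q, hw, hlam, hs, hf, hPm, hPd, hPa, hQa, hr⟩ :=
    exists_phi_St hh (hBS hl) hg hL
  obtain ⟨n', w', lam', P', Q', hw', hlam', hs', hf', hPm', hPd', hPa', hQa', hr'⟩ :=
    exists_phi_St (hh.mono hBS) hl (hg.subset hh hBS) (hL.subset hh hBS)
  obtain ⟨c₀, -⟩ : ∃ c : Fin r, h l c ≠ 0 := by
    by_contra hcon
    simp only [not_exists, not_not] at hcon
    simpa [hcon] using (hh l (hBS hl)).2
  obtain ⟨C₀, hz, he⟩ := Cluster.phi_cluster h x c₀ hBS hl hadj hball (fun u => (Z u : ℂ))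
  have hmom := mom_eq_of_degree (n := R - 1) hPm.ne_zero hPm'.ne_zero hr hr' (by
    rw [degree_mul (p := P) (q := P'), degree_eq_natDegree hPm.ne_zero, degree_eq_natDegree hPm'.ne_zero, hPd, hPd',
      ← Nat.cast_add]
    refine degree_mul_lt (P := -C₀) (k₀ := S.card + B.card - R - 1) (fun s => ?_)
      (fun k hk => by rw [coeff_neg, hz k (by omega), neg_zero]) ?_
    · rw [eval_neg, he, map_sub, map_mul, map_mul, hQa, hPa', hQa', hPa]
      ring
    · have := Finset.card_pos.2 ⟨l, hl⟩
      have := Finset.card_le_card hBS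
      omega)
  have hval := St_close (s := 0) (L := L) hg0 hgL (by omega : 0 < R - 1) hw hw'
    (fun i => ⟨by linarith [(hlam i).2], by linarith [(hlam i).1]⟩)
    (fun i => ⟨by linarith [(hlam' i).2], by linarith [(hlam' i).1]⟩) hmom
  rw [← hf 0 (by linarith), ← hf' 0 (by linarith), hs, hs'] at hval
  simp only [add_zero] at hval
  refine hval.trans (le_of_eq ?_)
  ring

/-- The tail bound for `m_lc`. -/
theorem m_tail {G : SimpleGraph ι} {R : ℕ} (hh : IsLaw S h) (hBS : B ⊆ S) (hl : l ∈ B)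
    (hadj : ∀ i ∈ S, ∀ j ∈ S, i ≠ j → x i j ≠ 0 → G.Adj i j)
    (hball : ∀ v ∈ S, ∀ p : G.Walk l v, p.length ≤ R → v ∈ B) (hg0 : 0 < g) (hgL : g < L)
    (hR : 2 ≤ R) (hd : ∀ u ∈ S, x u u = 0) (c : Fin r) (hg : Valid S h (fun u => Z u - g) x)
    (hL : Valid S h (fun u => L - Z u) (-x)) :
    |m S l h c Z x - m B l h c Z x|
      ≤ 4 * (∑ k ∈ S.erase l, h k c * Complex.normSq (x l k))
        * Real.exp (-(((R - 1 : ℕ) : ℝ) * Real.sqrt (g / L))) / g := by
  obtain ⟨n, w, lam, P, Q, hw, hlam, hs, hf, hPm, hPd, hPa, hQa, hr⟩ :=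
    exists_m_St hh (hBS hl) hd c hg hL
  obtain ⟨n', w', lam', P', Q', hw', hlam', hs', hf', hPm', hPd', hPa', hQa', hr'⟩ :=
    exists_m_St (hh.mono hBS) hl (fun u hu => hd u (hBS hu)) c (hg.subset hh hBS)
      (hL.subset hh hBS)
  obtain ⟨C₀, hz, he⟩ := Cluster.m_cluster h x c hBS hl hadj hball (fun u => (Z u : ℂ))
  have hmom := mom_eq_of_degree (n := R - 1) hPm.ne_zero hPm'.ne_zero hr hr' (by
    rw [degree_mul (p := P) (q := P'), degree_eq_natDegree hPm.ne_zero, degree_eq_natDegree hPm'.ne_zero,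
      ← Nat.cast_add]
    refine degree_mul_lt (P := -C₀) (k₀ := S.card + B.card - R - 1) (fun s => ?_)
      (fun k hk => by rw [coeff_neg, hz k (by omega), neg_zero]) ?_
    · rw [eval_neg, he, map_sub, map_mul, map_mul, hQa, hPa', hQa', hPa]
      ring
    · have := Finset.card_pos.2 ⟨l, hl⟩
      have := Finset.card_le_card hBS
      omega)
  have hmass : ∑ i, w' i ≤ ∑ i, w i := by
    rw [hs, hs']
    refine Finset.sum_le_sum_of_subset_of_nonneg (Finset.erase_subset_erase l hBS) fun k hk _ => ?_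
    exact mul_nonneg ((hh k (Finset.mem_of_mem_erase hk)).1 c) (Complex.normSq_nonneg _)
  have hval := St_close (s := 0) (L := L) hg0 hgL (by omega : 0 < R - 1) hw hw'
    (fun i => ⟨by linarith [(hlam i).2], by linarith [(hlam i).1]⟩)
    (fun i => ⟨by linarith [(hlam' i).2], by linarith [(hlam' i).1]⟩) hmom
  rw [← hf 0 (by linarith), ← hf' 0 (by linarith)] at hval
  simp only [add_zero] at hval
  refine hval.trans ((mul_le_mul_of_nonneg_right
    (show ∑ i, w i + ∑ i, w' i ≤ 2 * ∑ i, w i by linarith) (by positivity)).trans (le_of_eq ?_))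
  rw [hs]
  ring

end Vale.Agent.P078.Local
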